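import Vale.Agent.P352NA.PF.Sym
import Vale.Agent.P352Z.P352NA.PF.Ext

open Vale.Agent.P352G

/-!
# P352NA, block PF: symmetries and their action on distributions
-/

set_option linter.all false

open Set Filter Topology
open scoped SchwartzMap

namespace Vale.Agent.P352X.Pf

open Vale.Agent.P352 Vale.Agent.P352.GF Vale.Agent.P352.H15
open Vale.Agent.P352.H246 (In)
open UniformSpace (Completion)
open Complex (I)
open TPD (TT)
open KDa (dS mS barL)
open Real (exp)

noncomputable section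

variable {D : Type*} [NormedAddCommGroup D] [InnerProductSpace ℂ D] [GrD D] {c : CtxZ D}
  {φ φ' ψ : TT D} {U U' : Completion D →L[ℂ] Completion D} {e e' : V ≃L[ℝ] V} {s : ℝ}

/-- pairs that are local in the cut cones -/
def LcZ (c : CtxZ D) (φ φ' : TT D) : Prop := ∀ r, 0 < r → ∀ f : Sch, HasCompactSupport f →
  tsupport f ⊆ Rc r 0 → Pr (c.N (Rc r 0)) c.Om (φ f) (φ' (barL f))

theorem LcZ.zero : LcZ c 0 0 := fun _ _ _ _ _ => Pr.zero

theorem LcZ.add {ψ' : TT D} (h : LcZ c φ φ') (h' : LcZ c ψ ψ') : LcZ c (φ + ψ) (φ' + ψ') :=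
  fun r hr f h1 h2 => (h r hr f h1 h2).add (h' r hr f h1 h2)

theorem LcZ.smul (z : ℂ) (h : LcZ c φ φ') : LcZ c (z • φ) (star z • φ') :=
  fun r hr f h1 h2 => (h r hr f h1 h2).smul z

theorem LcZ.tr (g : GRPZ c) (h : LcZ c φ φ') (t : TCZ c φ) (t' : TCZ c φ') {r : ℝ} (hr : 0 < r) (y : V)
    {f : Sch} (h1 : HasCompactSupport f) (h2 : tsupport f ⊆ Rc r y) :
    Pr (c.N (Rc r y)) c.Om (φ f) (φ' (barL f)) := by
  have k := g.pr_ut (h r hr (ST.tsl (-y) f) (cs_tsl h1 _) fun z hz => by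
    simpa using mem_rc.1 (h2 (supp_tsl _ _ hz))) y (O' := Rc r y)
    fun z hz => mem_rc.2 (by simpa using hz)
  rwa [t, t', bar_tsl, tsl_tsl, tsl_tsl, add_neg_cancel, tsl_zero, tsl_zero] at k

/-- the partner is unique -/
theorem LcZ.unique (t : T1Z c) {φ'' : TT D} (h : LcZ c φ φ') (h' : LcZ c φ φ'') (k : TCZ c φ')
    (k' : TCZ c φ'') : φ' = φ'' := by
  refine sub_eq_zero.1 ((k.sub k').van (rc_open 1) (rc_ne one_pos) fun f h1 h2 => ?_)
  have a := h 1 one_pos (barL f) (by rwa [HasCompactSupport, supp_bar]) (by rwa [supp_bar])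
  have b := h' 1 one_pos (barL f) (by rwa [HasCompactSupport, supp_bar]) (by rwa [supp_bar])
  rw [bar_bar] at a b
  exact sub_eq_zero.2 (a.unique b
    (t.jc.cyc_sub t.grp null_va null_vb (by simp [md_ab]) (rc_sub one_pos)))

/-- symmetries that scale `K` -/
structure SyZ (c : CtxZ D) (U : Completion D →L[ℂ] Completion D) (e : V ≃L[ℝ] V) (s : ℝ) :
    Prop where
  ut : ∀ y, U * Ut c.Q y = Ut c.Q (e y) * U
  s0 : 0 < s
  be : ∀ z, be (e z) = s * be z
  ck : ∀ z, cK va (e z) = s • e (cK va z)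
  sk : ∀ r, U * c.SK r = c.SK (r / s) * U
  geo : ∀ r, 0 < r → ∃ r', 0 < r' ∧ ∃ y, ∀ z, e z ∈ Rc r 0 ↔ z ∈ Rc r' y
  pr : ∀ O O' ψ ψ', (∀ z ∈ O, e z ∈ O') → Pr (c.N O) c.Om ψ ψ' → Pr (c.N O') c.Om (U ψ) (U ψ')

theorem SyZ.tc (y : SyZ c U e s) (h : TCZ c φ) : TCZ c (ac U e φ) := fun a f => by
  obtain ⟨a, rfl⟩ := e.surjective a
  rw [ac_apply, ac_apply, pL_tsl, ← h, ← ContinuousLinearMap.mul_apply, ← y.ut]
  rfl

theorem SyZ.lc (g : GRPZ c) (y : SyZ c U e s) (h : LcZ c φ φ') (t : TCZ c φ) (t' : TCZ c φ') :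
    LcZ c (ac U e φ) (ac U e φ') := fun r hr f h1 h2 => by
  obtain ⟨r', r0, a, k⟩ := y.geo r hr
  exact y.pr _ _ _ _ (fun z hz => (k z).2 hz) (h.tr g t t' r0 a (cs_pL e h1)
    fun z hz => (k z).1 (h2 (supp_pL e f hz)))

theorem sySZ (g : GRPZ c) (x y : ℝ) : SyZ c (Usc c.Q (exp x) (exp y)) (eS x y) (exp y) where
  ut a := g.sc_ut _ _ a (Real.exp_pos x) (Real.exp_pos y)
  s0 := Real.exp_pos y
  be z := by simp
  ck z := null_ext (by
      simp only [eS_apply, G1.al_cK, tx_scp, al_smul, al_scp, d2_smul, d2_smul_l, ← mul_assoc,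
        Real.mul_self_sqrt (mul_pos (Real.exp_pos x) (Real.exp_pos y)).le, mul_comm (exp y) (exp x)])
    (by simp [G1.be_cK]; ring) (by
      simp only [eS_apply, G1.tx_cK, tx_scp, be_scp, tx_smul]
      module)
  sk r := g.sc_S _ _ r (Real.exp_pos x) (Real.exp_pos y)
  geo r hr := ⟨r * exp y, mul_pos hr (Real.exp_pos y), 0, fun z => by
    have hx := Real.exp_pos x
    have hy := Real.exp_pos y
    simp only [G1.mem_Rc, eS_apply, be_scp, al_scp, mu, md_scp _ _ (mul_pos hx hy).le]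
    refine and_congr ⟨fun h => neg_of_mul_neg_right h hy.le, fun h => mul_neg_of_pos_of_neg hy h⟩
      (and_congr (by simp only [mul_assoc]) ?_)
    rw [← mul_pos_iff_of_pos_left hx (b := _ + r * exp y * _)]
    exact iff_of_eq (by congr 1; ring)⟩
  pr O O' ψ ψ' k h := g.pr_sc h (Real.exp_pos x) (Real.exp_pos y) k

theorem syGZ (g : GRPZ c) (w : R2) : SyZ c (Ga c.Q w) (eG w) 1 where
  ut a := g.ga_ut w a
  s0 := one_pos
  be z := by simp
  ck z := null_ext (by
    simp [G1.al_cK, G1.be_cK, G1.tx_cK, d2_add, d2_add_l, d2_smul, d2_smul_l, d2_comm w]; ring)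
    (by simp [G1.be_cK]) (by
      simp only [eG_apply, G1.tx_cK, G1.be_cK, tx_gap, be_gap, one_smul]
      module)
  sk r := by simpa using g.ga_S w r
  geo r hr := ⟨r, hr, pt (-(d2 w w / (4 * r))) 0 ((2 * r)⁻¹ • w), fun z => by
    rw [mem_rc (y := pt _ _ _)]
    simp only [G1.mem_Rc, eG_apply, be_gap, al_gap, be_sub, be_pt, sub_zero, al_sub, al_pt]
    refine and_congr_right fun _ => and_congr_right fun _ => iff_of_eq ?_
    congr 1
    simp only [mu_eq, al_gap, be_gap, tx_gap, al_sub, be_sub, tx_sub, al_pt, be_pt, tx_pt, d2_add,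
      d2_add_l, d2_sub, d2_sub_l, d2_smul, d2_smul_l, d2_comm (tx z) w]
    field_simp
    ring⟩
  pr O O' ψ ψ' k h := g.pr_ga h w k

/-- the scalings act -/
def aSZ (c : CtxZ D) (x y : ℝ) : TT D →ₗ[ℂ] TT D := ac (Usc c.Q (exp x) (exp y)) (eS x y)

/-- the null rotations act -/
def aGZ (c : CtxZ D) (w : R2) : TT D →ₗ[ℂ] TT D := ac (Ga c.Q w) (eG w)

theorem aS_aSZ (g : GRPZ c) (x y x' y' : ℝ) : aSZ c x y (aSZ c x' y' φ) = aSZ c (x + x') (y + y') φ :=
  ac_mul (by
    rw [Real.exp_add, Real.exp_add]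
    exact g.sc _ _ _ _ (Real.exp_pos _) (Real.exp_pos _) (Real.exp_pos _) (Real.exp_pos _))
    fun z => by simp [scp_scp _ (Real.exp_pos _).le (Real.exp_pos _).le, Real.exp_add]

theorem aG_aGZ (g : GRPZ c) (v w : R2) : aGZ c v (aGZ c w φ) = aGZ c (v + w) φ :=
  ac_mul (g.ga v w) fun z => by simp [gap_gap]

theorem aS_aGZ (g : GRPZ c) (x y : ℝ) (w : R2) :
    aSZ c x y (aGZ c w φ) = aGZ c (exp ((x - y) / 2) • w) (aSZ c x y φ) :=
  ac_ac (by rw [← sqrt_ed]; exact g.sc_ga _ _ w (Real.exp_pos _) (Real.exp_pos _)) fun z => by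
    have a : exp x = exp ((x - y) / 2) * exp ((x + y) / 2) := by
      rw [← Real.exp_add]; congr 1; ring
    have b : exp ((x + y) / 2) = exp ((x - y) / 2) * exp y := by
      rw [← Real.exp_add]; congr 1; ring
    refine null_ext ?_ (by simp) ?_
    · simp only [eS_apply, eG_apply, al_scp, al_gap, tx_scp, be_scp, sqrt_ee, d2_smul, d2_smul_l]
      rw [a, b]
      ring
    · simp only [eS_apply, eG_apply, tx_scp, tx_gap, be_scp, sqrt_ee, b]
      module

/-- the scaling groups -/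
def WsZ (c : CtxZ D) (x y t : ℝ) : Completion D →L[ℂ] Completion D :=
  Usc c.Q (exp (x * t)) (exp (y * t))

theorem flSZ (g : GRPZ c) (x y : ℝ) : Fl (WsZ c x y) (fun t => eS (x * t) (y * t)) (XS x y) where
  ug := g.ugSc x y
  e0 z := by simp
  ea s t z := by simp [scp_scp _ (Real.exp_pos _).le (Real.exp_pos _).le, mul_add, Real.exp_add]
  der := by
    have d : ∀ a : ℝ, HasDerivAt (fun t => exp (a * t)) a 0 := fun a => by
      simpa using ((hasDerivAt_id' (0 : ℝ)).const_mul a).exp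
    refine ((((d x).smul_const (alL.smulRight va)).fun_add ((d y).smul_const
      (beL.smulRight vb))).fun_add ((d ((x + y) / 2)).smul_const
        (tvL.comp txL))).congr_of_eventuallyEq (.of_forall fun t => ?_)
    ext1 z
    refine null_ext (by simp) (by simp) ?_
    simp [sqrt_ee]
    congr 2
    ring

theorem flMZ (g : GRPZ c) (i : Fin 2) : Fl (Mi c.Q i) (fun t => eG (t • e2 i)) (XM i) where
  ug := g.ugM i
  e0 z := by simp
  ea s t z := by simp [gap_gap, add_smul]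
  der := by
    have d := hasDerivAt_id' (0 : ℝ)
    refine ((((d.smul_const (XM i)).const_add 1).fun_add (((d.fun_pow 2).div_const 2).smul_const
      (beL.smulRight va))).congr_of_eventuallyEq (.of_forall fun t => ?_)).congr_deriv (by simp)
    ext1 z
    refine null_ext ?_ (by simp [XM]) (by simp [XM, smul_comm t])
    simp [XM, d2_smul, d2_smul_l]
    ring

theorem ws_boZ : WsZ c 1 (-1) = Bo c.Q := funext fun t => by simp [WsZ, Bo]

variable {W : ℝ → Completion D →L[ℂ] Completion D} {ε : ℝ → V ≃L[ℝ] V} {X : V →L[ℝ] V}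

theorem TCZ.gn (h : TCZ c φ) (a : V) (f : Sch) :
    Gn (fun t => Ut c.Q (t • a)) (φ f) (I • φ (dS a f)) := by
  rw [Gn, smul_smul, Complex.I_mul_I, neg_one_smul]
  simpa only [h _ f] using der_tsl φ a f

end

end Vale.Agent.P352X.Pf
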