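import Vale.Agent.P352NA.PF.Fam
import Vale.Agent.P352Z.P352NA.PF.Sym

open Vale.Agent.P352G

/-!
# P352NA, block PF: the class of local distributions of finite type
-/

set_option linter.all false

open Set Filter Topology
open scoped SchwartzMap

namespace Vale.Agent.P352X.Pf

open Vale.Agent.P352 Vale.Agent.P352.GF Vale.Agent.P352.H15
open UniformSpace (Completion)
open Complex (I)
open TPD (TT)
open KDa (dS mS barL)
open Real (exp)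

noncomputable section

variable {D : Type*} [NormedAddCommGroup D] [InnerProductSpace ℂ D] [GrD D] {c : CtxZ D}
  {φ φ' ψ : TT D} {E E' : Submodule ℂ (TT D)}

/-- members of a family -/
structure MbZ (c : CtxZ D) (E : Submodule ℂ (TT D)) (φ : TT D) : Prop where
  tc : TCZ c φ
  par : ∃ φ' ∈ E, LcZ c φ φ'
  aS : ∀ x y, aSZ c x y φ ∈ E
  aG : ∀ w, aGZ c w φ ∈ E
  dS : ∀ x y f, Dm (WsZ c x y) (φ f)
  dM : ∀ i f, Dm (Mi c.Q i) (φ f)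

theorem MbZ.mono (h : MbZ c E φ) (k : E ≤ E') : MbZ c E' φ :=
  ⟨h.tc, h.par.imp fun _ a => ⟨k a.1, a.2⟩, fun x y => k (h.aS x y), fun w => k (h.aG w), h.dS, h.dM⟩

theorem MbZ.zero : MbZ c E 0 :=
  ⟨.zero, ⟨0, E.zero_mem, .zero⟩, fun _ _ => by simp, fun _ => by simp, fun _ _ _ => dm_zero,
    fun _ _ => dm_zero⟩

theorem MbZ.add (h : MbZ c E φ) (h' : MbZ c E ψ) : MbZ c E (φ + ψ) := by
  obtain ⟨a, a1, a2⟩ := h.par
  obtain ⟨b, b1, b2⟩ := h'.par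
  exact ⟨h.tc.add h'.tc, ⟨a + b, E.add_mem a1 b1, a2.add b2⟩,
    fun x y => by rw [map_add]; exact E.add_mem (h.aS x y) (h'.aS x y),
    fun w => by rw [map_add]; exact E.add_mem (h.aG w) (h'.aG w),
    fun x y f => (h.dS x y f).add (h'.dS x y f), fun i f => (h.dM i f).add (h'.dM i f)⟩

theorem MbZ.smul (z : ℂ) (h : MbZ c E φ) : MbZ c E (z • φ) := by
  obtain ⟨a, a1, a2⟩ := h.par
  exact ⟨h.tc.smul z, ⟨_, E.smul_mem _ a1, a2.smul z⟩,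
    fun x y => by rw [map_smul]; exact E.smul_mem _ (h.aS x y),
    fun w => by rw [map_smul]; exact E.smul_mem _ (h.aG w),
    fun x y f => (h.dS x y f).smul z, fun i f => (h.dM i f).smul z⟩

/-- families -/
structure FamZ (c : CtxZ D) (E : Submodule ℂ (TT D)) : Prop where
  fd : FiniteDimensional ℂ E
  mb : ∀ φ ∈ E, MbZ c E φ

theorem FamZ.sup' (h : FamZ c E) [FiniteDimensional ℂ E'] (h' : ∀ φ ∈ E', MbZ c (E ⊔ E') φ) :
    FamZ c (E ⊔ E') := by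
  haveI := h.fd
  refine ⟨inferInstance, fun φ hφ => ?_⟩
  obtain ⟨a, a1, b, b1, rfl⟩ := Submodule.mem_sup.1 hφ
  exact ((h.mb a a1).mono le_sup_left).add (h' b b1)

theorem FamZ.sup (h : FamZ c E) (h' : FamZ c E') : FamZ c (E ⊔ E') :=
  haveI := h'.fd
  h.sup' fun φ hφ => (h'.mb φ hφ).mono le_sup_right

/-- the class -/
def WWZ (c : CtxZ D) : Submodule ℂ (TT D) where
  carrier := {φ | ∃ E, FamZ c E ∧ φ ∈ E}
  add_mem' := fun ⟨_, a, b⟩ ⟨_, a', b'⟩ => ⟨_, a.sup a', Submodule.add_mem_sup b b'⟩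
  zero_mem' := ⟨⊥, ⟨inferInstance, fun φ h => by rw [Submodule.mem_bot] at h; exact h ▸ .zero⟩,
    Submodule.zero_mem _⟩
  smul_mem' := fun z _ ⟨E, a, b⟩ => ⟨E, a, E.smul_mem z b⟩

theorem FamZ.le (h : FamZ c E) : E ≤ WWZ c := fun _ k => ⟨E, h, k⟩

theorem mb_WZ (h : φ ∈ WWZ c) : MbZ c (WWZ c) φ :=
  let ⟨_, a, b⟩ := h
  (a.mb φ b).mono a.le

theorem HD.lcZ {A B : ℝ → TT D} {ψ' : TT D} (h : HD A ψ) (h' : HD B ψ')
    (k : ∀ t, LcZ c (A t) (B t)) : LcZ c ψ ψ' := fun r hr f h1 h2 =>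
  Pr.deriv (l := 𝓝[≠] 0) le_rfl (.of_forall fun t => k t r hr f h1 h2) (h f) (h' _)

section fl

variable {W : ℝ → Completion D →L[ℂ] Completion D} {ε : ℝ → V ≃L[ℝ] V} {X : V →L[ℝ] V}

end fl

/-- the generators of the scalings on distributions -/
def dlZ (c : CtxZ D) (x y : ℝ) (φ : TT D) : TT D := dr fun t => aSZ c (x * t) (y * t) φ

/-- the generators of the null rotations on distributions -/
def mmZ (c : CtxZ D) (i : Fin 2) (φ : TT D) : TT D := dr fun t => aGZ c (t • e2 i) φ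

variable (g : GRPZ c)
include g

theorem FamZ.dl (h : FamZ c E) (k : φ ∈ E) (x y : ℝ) :
    dlZ c x y φ ∈ E ∧ HD (fun t => aSZ c (x * t) (y * t) φ) (dlZ c x y φ) :=
  haveI := h.fd
  (flSZ g x y).ex (fun _ => (h.mb φ k).aS _ _) ((h.mb φ k).dS x y)

theorem FamZ.mm (h : FamZ c E) (k : φ ∈ E) (i : Fin 2) :
    mmZ c i φ ∈ E ∧ HD (fun t => aGZ c (t • e2 i) φ) (mmZ c i φ) :=
  haveI := h.fd
  (flMZ g i).ex (fun _ => (h.mb φ k).aG _) ((h.mb φ k).dM i)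

theorem dl_WZ (k : φ ∈ WWZ c) (x y : ℝ) :
    dlZ c x y φ ∈ WWZ c ∧ HD (fun t => aSZ c (x * t) (y * t) φ) (dlZ c x y φ) :=
  let ⟨_, a, b⟩ := k
  ⟨a.le (a.dl g b x y).1, (a.dl g b x y).2⟩

theorem mm_WZ (k : φ ∈ WWZ c) (i : Fin 2) :
    mmZ c i φ ∈ WWZ c ∧ HD (fun t => aGZ c (t • e2 i) φ) (mmZ c i φ) :=
  let ⟨_, a, b⟩ := k
  ⟨a.le (a.mm g b i).1, (a.mm g b i).2⟩

theorem gen_SZ (k : φ ∈ WWZ c) (x y : ℝ) (f : Sch) :
    I • gen (WsZ c x y) (φ f) = dlZ c x y φ f - φ (vS (XS x y) f) :=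
  (flSZ g x y).gn (dl_WZ g k x y).2 ((mb_WZ k).dS x y f)

theorem gen_MZ (k : φ ∈ WWZ c) (i : Fin 2) (f : Sch) :
    I • gen (Mi c.Q i) (φ f) = mmZ c i φ f - φ (vS (XM i) f) :=
  (flMZ g i).gn (mm_WZ g k i).2 ((mb_WZ k).dM i f)

theorem dl_linZ (k : φ ∈ WWZ c) (k' : ψ ∈ WWZ c) (z : ℂ) (x y : ℝ) :
    dlZ c x y (φ + z • ψ) = dlZ c x y φ + z • dlZ c x y ψ := by
  refine HD.dr_eq ?_
  simp only [map_add, map_smul]
  exact (dl_WZ g k x y).2.lin (dl_WZ g k' x y).2 z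

theorem mm_linZ (k : φ ∈ WWZ c) (k' : ψ ∈ WWZ c) (z : ℂ) (i : Fin 2) :
    mmZ c i (φ + z • ψ) = mmZ c i φ + z • mmZ c i ψ := by
  refine HD.dr_eq ?_
  simp only [map_add, map_smul]
  exact (mm_WZ g k i).2.lin (mm_WZ g k' i).2 z

theorem dl_lcZ (k : φ ∈ WWZ c) (k' : φ' ∈ WWZ c) (h : LcZ c φ φ') (x y : ℝ) :
    LcZ c (dlZ c x y φ) (dlZ c x y φ') :=
  (dl_WZ g k x y).2.lcZ (dl_WZ g k' x y).2 fun _ => (sySZ g _ _).lc g h (mb_WZ k).tc (mb_WZ k').tc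

theorem mm_lcZ (k : φ ∈ WWZ c) (k' : φ' ∈ WWZ c) (h : LcZ c φ φ') (i : Fin 2) :
    LcZ c (mmZ c i φ) (mmZ c i φ') :=
  (mm_WZ g k i).2.lcZ (mm_WZ g k' i).2 fun _ => (syGZ g _).lc g h (mb_WZ k).tc (mb_WZ k').tc

theorem aS_mmZ (k : φ ∈ WWZ c) (x y : ℝ) (i : Fin 2) :
    aSZ c x y (mmZ c i φ) = (exp ((x - y) / 2) : ℂ) • mmZ c i (aSZ c x y φ) := by
  refine ((mm_WZ g k i).2.ac _ _).unique ?_
  have := (mm_WZ g ((mb_WZ k).aS x y) i).2.scale (exp ((x - y) / 2))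
  simp only [mul_smul, ← aS_aGZ g] at this
  exact this

theorem aG_mmZ (k : φ ∈ WWZ c) (w : R2) (i : Fin 2) : aGZ c w (mmZ c i φ) = mmZ c i (aGZ c w φ) := by
  refine ((mm_WZ g k i).2.ac _ _).unique ?_
  have := (mm_WZ g ((mb_WZ k).aG w) i).2
  simp only [aG_aGZ g, add_comm _ w] at this
  simp only [← aG_aGZ g] at this
  exact this

omit g in
/-- maps that are linear on the class -/
def mkLZ (F : TT D → TT D)
    (h : ∀ φ ψ (z : ℂ), φ ∈ WWZ c → ψ ∈ WWZ c → F (φ + z • ψ) = F φ + z • F ψ) :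
    WWZ c →ₗ[ℂ] TT D where
  toFun x := F x
  map_add' x y := by simpa using h x y 1 x.2 y.2
  map_smul' z x := by
    have k : F 0 = 0 := by simpa using h 0 0 1 (zero_mem _) (zero_mem _)
    simpa [k] using h 0 x z (zero_mem _) x.2

/-- commutation with the scalings -/
theorem dl_commZ {F : TT D → TT D}
    (h : ∀ φ ψ (z : ℂ), φ ∈ WWZ c → ψ ∈ WWZ c → F (φ + z • ψ) = F φ + z • F ψ) (k : φ ∈ WWZ c)
    {x y a : ℝ} (e : ∀ t, aSZ c (x * t) (y * t) (F φ) =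
      (exp (a * t) : ℂ) • F (aSZ c (x * t) (y * t) φ)) :
    dlZ c x y (F φ) = F (dlZ c x y φ) + (a : ℂ) • F φ := by
  obtain ⟨E, hE, k⟩ := k
  haveI := hE.fd
  have d : HasDerivAt (fun t => (exp (a * t) : ℂ)) a 0 := by
    simpa using ((hasDerivAt_id' (0 : ℝ)).const_mul a).exp.ofReal_comp
  exact (flSZ g x y).one (fun _ => (hE.mb φ k).aS _ _) ((hE.mb φ k).dS x y) k
    (mkLZ F h ∘ₗ Submodule.inclusion hE.le) d (by simp) e

theorem dl_mmZ (k : φ ∈ WWZ c) (i : Fin 2) :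
    dlZ c 0 1 (mmZ c i φ) = mmZ c i (dlZ c 0 1 φ) + ((-(1 / 2) : ℝ) : ℂ) • mmZ c i φ :=
  dl_commZ g (fun _ _ z a b => mm_linZ g a b z i) k fun t => by
    rw [aS_mmZ g k]
    congr 3
    ring

/-- new families -/
theorem new_WZ {F : TT D → TT D}
    (h : ∀ φ ψ (z : ℂ), φ ∈ WWZ c → ψ ∈ WWZ c → F (φ + z • ψ) = F φ + z • F ψ)
    (tc : ∀ φ ∈ WWZ c, TCZ c (F φ)) (lc : ∀ φ ∈ WWZ c, ∀ φ' ∈ WWZ c, LcZ c φ φ' → LcZ c (F φ) (F φ'))
    {a : ℝ} (hS : ∀ φ ∈ WWZ c, ∀ x y, aSZ c x y (F φ) = (exp (a * y) : ℂ) • F (aSZ c x y φ)) {b : ℝ}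
    (hG : ∀ φ ∈ WWZ c, ∀ w, aGZ c w (F φ) =
      F (aGZ c w φ) + ∑ i, ((b * w i : ℝ) : ℂ) • mmZ c i (aGZ c w φ))
    (k : φ ∈ WWZ c) : F φ ∈ WWZ c := by
  obtain ⟨E, hE, k⟩ := k
  haveI := hE.fd
  let T : E →ₗ[ℂ] TT D := mkLZ F h ∘ₗ Submodule.inclusion hE.le
  have m : ∀ ψ ∈ E, F ψ ∈ E ⊔ LinearMap.range T := fun ψ hψ =>
    Submodule.mem_sup_right ⟨⟨ψ, hψ⟩, rfl⟩
  refine ⟨_, hE.sup' (E' := LinearMap.range T) ?_, m φ k⟩
  rintro _ ⟨⟨ψ, hψ⟩, rfl⟩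
  have w := hE.le hψ
  have q := hE.mb ψ hψ
  obtain ⟨ψ', p1, p2⟩ := q.par
  refine ⟨tc ψ w, ⟨_, m ψ' p1, lc ψ w ψ' (hE.le p1) p2⟩, fun x y => ?_, fun v => ?_,
    fun x y f => ?_, fun i f => ?_⟩
  · exact (hS ψ w x y).symm ▸ Submodule.smul_mem _ _ (m _ (q.aS x y))
  · exact (hG ψ w v).symm ▸ Submodule.add_mem _ (m _ (q.aG v)) (Submodule.sum_mem _ fun i _ =>
      Submodule.smul_mem _ _ (Submodule.mem_sup_left (hE.mm g (q.aG v) i).1))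
  · refine (flSZ g x y).two (fun _ => q.aS _ _) (q.dS x y) T T
      (a := fun t => (exp (a * (y * t)) : ℂ)) (b := fun _ => 0) ?_ (differentiableAt_const _)
      (fun t => ?_) f
    · exact (((hasDerivAt_id' (0 : ℝ)).const_mul y).const_mul a).exp.ofReal_comp.differentiableAt
    · rw [zero_smul, add_zero]
      exact hS ψ w _ _
  · refine (flMZ g i).two (fun _ => q.aG _) (q.dM i) T
      (mkLZ (mmZ c i) (fun _ _ z a b => mm_linZ g a b z i) ∘ₗ Submodule.inclusion hE.le)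
      (a := fun _ => 1) (b := fun t => ((b * t : ℝ) : ℂ)) (differentiableAt_const _) ?_
      (fun t => ?_) f
    · exact ((hasDerivAt_id' (0 : ℝ)).const_mul b).ofReal_comp.differentiableAt
    · rw [one_smul]
      refine (hG ψ w _).trans ?_
      rw [Finset.sum_eq_single i (fun j _ hj => by simp [e2, hj]) (by simp)]
      simp only [Pi.smul_apply, e2_self, smul_eq_mul, mul_one]
      rfl

end

end Vale.Agent.P352X.Pf
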