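import Vale.Agent.P352NA.PF.Kr1
import Vale.Agent.P352Z.P352NA.PF.Fam

open Vale.Agent.P352G

/-!
# P352NA, block PF: the generator `K` on the class, the defect
-/

set_option linter.all false

open Set Filter Topology
open scoped SchwartzMap

namespace Vale.Agent.P352X.Pf

open Vale.Agent.P352 Vale.Agent.P352.GF Vale.Agent.P352.H15
open UniformSpace (Completion)
open Complex (I)
open TPD (TT)
open KDa (dS mS barL)
open G1 (Hs)

noncomputable section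

variable {D : Type*} [NormedAddCommGroup D] [InnerProductSpace ℂ D] [GrD D] {c : CtxZ D}
  {φ : TT D} {f g : Sch} {y y' : V} {u u' : ℝ}

/-- the defect -/
def R0Z (c : CtxZ D) (φ : TT D) (f : Sch) : Completion D :=
  I • gen c.SK (φ f) - φ (KS f) - (2 : ℂ) • ∑ i, mmZ c i φ (mS (xL i) f)

/-- the defect with the centre `y` -/
def RYZ (c : CtxZ D) (φ : TT D) (y : V) (f : Sch) : Completion D :=
  Ut c.Q y (R0Z c φ (ST.tsl (-y) f))

/-- the defect for `K(u)` -/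
def RZ (c : CtxZ D) (φ : TT D) (u : ℝ) : Sch → Completion D := RYZ c φ (u • vb)

variable (t : T2Z c) (h : φ ∈ WWZ c)
include t h

theorem domZ {K : Set V} (hK : IsCompact K) (k : K ⊆ Hs 0) :
    (∀ f : Sch, tsupport f ⊆ K → Dm c.SK (φ f)) ∧ BD K fun f => ‖gen c.SK (φ f)‖ := by
  obtain ⟨s, r, r0, hr⟩ := G1.ex_cone hK k
  obtain ⟨C, hC⟩ := t.kd.a r r0
  obtain ⟨φ', -, p⟩ := (mb_WZ h).par
  have q : ∀ f : Sch, tsupport f ⊆ K → Dm c.SK (φ f) ∧ ‖gen c.SK (φ f)‖ ≤ C *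
      (‖φ (ST.tsl (s • va) f)‖ + ‖φ' (barL (ST.tsl (s • va) f))‖ +
        ‖dlZ c 1 (-1) φ (ST.tsl (s • va) f) - φ (vS (XS 1 (-1)) (ST.tsl (s • va) f))‖) :=
    fun f hf => by
    have b := (mb_WZ h).dS 1 (-1) (ST.tsl (s • va) f)
    have b' := gen_SZ t.grp h 1 (-1) (ST.tsl (s • va) f)
    rw [ws_boZ] at b b'
    obtain ⟨a1, a2⟩ := hC _ _ (p r r0 _ (cs_tsl (hK.of_isClosed_subset (isClosed_tsupport _) hf) _)
      fun z hz => hr ⟨_, hf (supp_tsl _ _ hz), by simp⟩) b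
    obtain ⟨a3, a4⟩ := a1.comm (t.grp.pa_S (-s))
    rw [Pa, (mb_WZ h).tc, tsl_tsl, neg_smul, neg_add_cancel, tsl_zero] at a3 a4
    rw [← b', norm_smul, Complex.norm_I, one_mul]
    exact ⟨a3, by rwa [a4, Ut, t.grp.ug_norm]⟩
  exact ⟨fun f hf => (q f hf).1, _, by fun_prop, by simp, fun f hf => (q f hf).2⟩

theorem dmZ (hf : Ad 0 f) : Dm c.SK (φ f) := (domZ t h hf.1 hf.2).1 f le_rfl

theorem gn_kyZ (hf : Ad (be y) f) :
    Gn (c.Ky y) (φ f) (Ut c.Q y (gen c.SK (φ (ST.tsl (-y) f)))) := by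
  refine (t.grp.gn_Ky y).2 ?_
  rw [t.grp.ut_apply, neg_add_cancel, t.grp.ut0, (mb_WZ h).tc]
  exact (dmZ t h (hf.tsl _ (by simp))).gn

theorem ry_eqZ (hf : Ad (be y) f) : RYZ c φ y f = I • gen (c.Ky y) (φ f) - φ (KY y f) -
    (2 : ℂ) • ∑ i, mmZ c i φ (mS (xL i) f - (tx y i : ℂ) • f) := by
  rw [RYZ, R0Z, map_sub, map_sub, map_smul, map_smul, map_sum, (gn_kyZ t h hf).gen_eq, (mb_WZ h).tc]
  simp only [fun i => (mb_WZ (mm_WZ t.grp h i).1).tc y, tsl_mS, xL_apply]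
  rfl

theorem ry_aZ (hf : Ad 0 f) (s : ℝ) : RYZ c φ (s • va) f = R0Z c φ f := by
  have e : c.Ky (s • va) = c.SK := funext fun r => by
    rw [CtxZ.Ky, ← Pa, t.grp.pa_S, Pa, mul_assoc, ← t.grp.ut, add_neg_cancel, t.grp.ut0, mul_one]
  rw [ry_eqZ t h (by simpa using hf), e, R0Z, show KY (s • va) f = KS f from
    SchwartzMap.ext fun z => by
      rw [KY_apply, KS_apply, show cK va (z - s • va) = cK va z from
        null_ext (by simp [G1.al_cK]) (by simp [G1.be_cK]) (by simp [G1.tx_cK])]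
      simp]
  simp

theorem ry_xZ (hf : Ad 0 f) (x : R2) : RYZ c φ (tv x) f = R0Z c φ f := by
  have m := fun i => congrArg (-I • ·) (gen_MZ t.grp h i f)
  simp only [neg_I_I] at m
  have p : Gn (Pa c.Q) _ _ := (mb_WZ h).tc.gn va f
  have e : KY (tv x) f = KS f + (2 * x 0 : ℂ) • vS (XM 0) f + (2 * x 1 : ℂ) • vS (XM 1) f -
      (d2 x x : ℂ) • dS va f := by
    ext z
    rw [KY_apply, show cK va (z - tv x) = cK va z - (2 * d2 x (tx z)) • va - (2 * be z) • tv x +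
      d2 x x • va from null_ext (by simp [G1.al_cK, d2_sub, d2_sub_l, d2_comm x]; ring)
        (by simp [G1.be_cK]) (by simp [G1.tx_cK, smul_sub]), tv_eq, d2_eq x (tx z)]
    simp [KS_apply, vS_apply, dS_apply, XM]
    ring
  rw [ry_eqZ t h (by simpa using hf),
    (t.gen.ky x _ (dmZ t h hf) (fun i => (mb_WZ h).dM i f) p.dm).gen_eq, e, R0Z, p.gen_eq]
  simp only [Fin.sum_univ_two, m, map_add, map_sub, map_smul, ← Complex.coe_smul, tx_tv]
  push_cast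
  match_scalars <;> simp [← mul_assoc] <;> ring_nf <;> simp

theorem ry_beZ (hf : Ad (be y) f) (e : be y' = be y) : RYZ c φ y' f = RYZ c φ y f := by
  have e' : y' = y + (al (y' - y) • va + tv (tx (y' - y))) :=
    null_ext (by simp) (by simp [e]) (by simp)
  have k : Ad 0 (ST.tsl (-y) f) := hf.tsl _ (by simp)
  rw [RYZ.eq_def c φ y, ← ry_aZ t h k (al (y' - y)), RYZ.eq_def c φ (_ • va),
    ← ry_xZ t h (k.tsl _ (by simp)) (tx (y' - y)), RYZ.eq_def c φ (tv _), tsl_tsl, tsl_tsl,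
    t.grp.ut_apply, t.grp.ut_apply, add_assoc, ← e', ← neg_add, ← neg_add, add_comm (tv _),
    add_comm _ y, ← e', RYZ]

theorem r_traZ (hf : Ad u f) (a : V) :
    Ut c.Q a (RZ c φ u f) = RZ c φ (u + be a) (ST.tsl a f) := by
  rw [RZ, RZ, ← ry_beZ t h (y' := a + u • vb) (hf.tsl a (by simp)) (by simp [add_comm]), RYZ, RYZ,
    t.grp.ut_apply, tsl_tsl, show -(a + u • vb) + a = -(u • vb) by abel]

theorem r_linZ (hf : Ad u f) (hg : Ad u g) (a : ℂ) :
    RZ c φ u (f + a • g) = RZ c φ u f + a • RZ c φ u g := by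
  have k := dmZ t h (hf.tsl (-(u • vb)) (u' := 0) (by simp))
  have k' := dmZ t h (hg.tsl (-(u • vb)) (u' := 0) (by simp))
  simp only [RZ, RYZ, R0Z, map_add, map_smul, gen_add k (k'.smul a), gen_smul a k', map_sub,
    Fin.sum_univ_two]
  module

theorem r_bdZ {K : Set V} (hK : IsCompact K) (k : K ⊆ Hs u) : BD K fun f => ‖RZ c φ u f‖ := by
  obtain ⟨q, q1, q2, q3⟩ := (domZ t h (hK.image (f := fun z => z - u • vb) (by fun_prop)) (by
    rintro _ ⟨z, hz, rfl⟩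
    simpa [Hs] using k hz)).2
  have ct := (ST.tsl (E := V) (-(u • vb))).continuous
  refine ⟨fun f => q (ST.tsl (-(u • vb)) f) + ‖φ (KS (ST.tsl (-(u • vb)) f))‖ +
    ‖(2 : ℂ) • ∑ i, mmZ c i φ (mS (xL i) (ST.tsl (-(u • vb)) f))‖, ((q1.comp ct).add
      ((φ ∘L KS).continuous.comp ct).norm).add (Continuous.norm (Continuous.fun_const_smul
        (continuous_finset_sum _ fun i _ => (mmZ c i φ ∘L mS (xL i)).continuous.comp ct) _)),
    by simp [q2], fun f hf => ?_⟩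
  beta_reduce
  rw [RZ, RYZ, Ut, t.grp.ug_norm, R0Z]
  refine norm_sub_le_of_le (norm_sub_le_of_le ?_ le_rfl) le_rfl
  rw [norm_smul, Complex.norm_I, one_mul]
  exact q3 _ fun z hz => ⟨_, hf (supp_tsl _ _ hz), by simp⟩

theorem r_affZ (E : EEZ c) {lo : ℝ} (hf : Ad lo f) (hi : ℝ) :
    ∃ A B, ∀ u ∈ Ioo lo hi, RZ c φ u f = A + (u : ℂ) • B := by
  have k : ∀ u ∈ Ioo lo hi, Ad (be (u • vb)) f := fun u hu => hf.le (by simpa using hu.1.le)
  have p : Gn (Pb c.Q) _ _ := (mb_WZ h).tc.gn vb f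
  obtain ⟨k0, k1, e⟩ := E lo hi (φ f) (fun u hu => (gn_kyZ t h (k u hu)).dm) p.dm
  refine ⟨I • k0 - φ (KS f) - (2 : ℂ) • ∑ i, mmZ c i φ (mS (xL i) f),
    I • k1 - φ ((4 : ℂ) • vS (XS 0 1) f + (8 : ℂ) • f), fun u hu => ?_⟩
  rw [RZ, ry_eqZ t h (k u hu), e u hu, p.gen_eq, KY_b]
  simp only [map_add, map_sub, map_smul, tx_smul, tx_vb, smul_zero, Pi.zero_apply,
    Complex.ofReal_zero, zero_smul, sub_zero]
  push_cast
  match_scalars <;> simp [← mul_assoc] <;> ring_nf <;> simp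

end

end Vale.Agent.P352X.Pf
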