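import Vale.Agent.P352NA.PF.Kr3
import Vale.Agent.P352Z.P352NA.PF.Kr2

open Vale.Agent.P352G

/-!
# P352NA, block PF: covariance of `S` and `K`, the operators on the class
-/

set_option linter.all false

open Set Filter Topology
open scoped SchwartzMap

namespace Vale.Agent.P352X.Pf

open Vale.Agent.P352 Vale.Agent.P352.GF Vale.Agent.P352.H15
open UniformSpace (Completion)
open Complex (I)
open TPD (TT)
open KDa (dS mS barL)
open G1 (Hs)
open Real (exp)

noncomputable section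

variable {D : Type*} [NormedAddCommGroup D] [InnerProductSpace ℂ D] [GrD D] {c : CtxZ D}
  {φ ψ : TT D} {f : Sch} {U : Completion D →L[ℂ] Completion D} {e : V ≃L[ℝ] V} {s : ℝ}

theorem SyZ.be_pL (y : SyZ c U e s) (f : Sch) : pL e (mS beL f) = (s : ℂ) • mS beL (pL e f) := by
  rw [← mS_smul]
  exact pL_mS (fun z => by simp [y.be]) f

theorem SyZ.ks (y : SyZ c U e s) (f : Sch) : pL e (KS f) = (s : ℂ) • KS (pL e f) := by
  ext z
  rw [pL_apply, KS_apply, SchwartzMap.smul_apply, KS_apply, show ⇑(pL e f) = f ∘ e from rfl,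
    e.comp_right_fderiv, y.ck, y.be]
  simp
  ring

theorem SyZ.ad (y : SyZ c U e s) (hf : Ad 0 f) : Ad 0 (pL e f) :=
  ⟨cs_pL e hf.1, fun z hz => by
    have : P352X.be (e z) < 0 := hf.2 (supp_pL e f hz)
    rw [y.be] at this
    exact neg_of_mul_neg_right this y.s0.le⟩

theorem SyZ.gn (y : SyZ c U e s) {v : Completion D} (h : Dm c.SK v) :
    gen c.SK (U v) = (s : ℂ) • U (gen c.SK v) :=
  (h.gn.scale U s fun r => by
    rw [← ContinuousLinearMap.mul_apply, ← ContinuousLinearMap.mul_apply U, y.sk,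
      mul_div_cancel_left₀ _ y.s0.ne']).gen_eq

variable (t : T2Z c) (E : EEZ c) (h : φ ∈ WWZ c)
include t E h

theorem r0_acZ (y : SyZ c U e s) (hf : Ad 0 f) : R0Z c (ac U e φ) f =
    (2 : ℂ) • ac U e (sgZ c φ) (mS beL f) + (s : ℂ) • ac U e (kpZ c φ) f +
      (2 : ℂ) • ∑ i, ((s : ℂ) • U (mmZ c i φ (mS (xL i) (pL e f))) -
        mmZ c i (ac U e φ) (mS (xL i) f)) := by
  have a := congrArg U ((ex_krZ t E h).eq _ (y.ad hf))
  simp only [R0Z, ac_apply, y.gn (dmZ t h (y.ad hf)), y.ks, y.be_pL, map_sub, map_add, map_smul,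
    Fin.sum_univ_two] at a ⊢
  linear_combination (norm := module) (s : ℂ) • a

theorem sk_aSZ (x y : ℝ) : sgZ c (aSZ c x y φ) = aSZ c x y (sgZ c φ) ∧
    kpZ c (aSZ c x y φ) = (exp y : ℂ) • aSZ c x y (kpZ c φ) := by
  have k := ex_krZ t E h
  have q := sySZ t.grp x y
  refine sk_eqZ t E ((mb_WZ h).aS x y) ⟨q.tc k.ts, (q.tc k.tk).smul _, fun f hf => ?_⟩
  refine (r0_acZ t E h q hf).trans ?_
  rw [Finset.sum_eq_zero fun i _ => ?_, smul_zero, add_zero]
  · rfl
  have a := DFunLike.congr_fun (aS_mmZ t.grp h x y i) (mS (xL i) f)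
  rw [aSZ, ac_apply, pL_mS (l' := exp ((x + y) / 2) • xL i) (fun z => by simp [sqrt_ee]), mS_smul,
    map_smul, map_smul, ContinuousLinearMap.smul_apply] at a
  have b : (exp ((x + y) / 2) : ℂ) = exp ((x - y) / 2) * exp y := by
    rw [← Complex.ofReal_mul, ← Real.exp_add]
    congr 2
    ring
  rw [b, mul_smul] at a
  exact sub_eq_zero.2 (smul_right_injective _ (Complex.ofReal_ne_zero.2 (Real.exp_pos _).ne') a)

theorem sk_aGZ (w : R2) : sgZ c (aGZ c w φ) = aGZ c w (sgZ c φ) - ∑ i, (w i : ℂ) • mmZ c i (aGZ c w φ) ∧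
    kpZ c (aGZ c w φ) = aGZ c w (kpZ c φ) := by
  have k := ex_krZ t E h
  have q := syGZ t.grp w
  have m := fun i => (mb_WZ (mm_WZ t.grp ((mb_WZ h).aG w) i).1).tc.smul (w i)
  refine sk_eqZ t E ((mb_WZ h).aG w) ⟨(q.tc k.ts).sub (by
    rw [Fin.sum_univ_two]; exact (m 0).add (m 1)), q.tc k.tk, fun f hf => ?_⟩
  refine (r0_acZ t E h q hf).trans ?_
  have a : ∀ i, Ga c.Q w (mmZ c i φ (mS (xL i) (pL (eG w) f))) =
      mmZ c i (aGZ c w φ) (mS (xL i) f) - (w i : ℂ) • mmZ c i (aGZ c w φ) (mS beL f) := fun i => by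
    rw [← aG_mmZ t.grp h, aGZ, ac_apply, ac_apply, q.be_pL,
      pL_mS (l' := xL i + w i • beL) (fun z => by simp [mul_comm]), mS_add, mS_smul]
    simp
  simp only [a, Fin.sum_univ_two, ContinuousLinearMap.sub_apply, ContinuousLinearMap.add_apply,
    ContinuousLinearMap.smul_apply, aGZ, Complex.ofReal_one]
  module

theorem kp_aSZ (x y : ℝ) : aSZ c x y (kpZ c φ) = (exp (-1 * y) : ℂ) • kpZ c (aSZ c x y φ) := by
  rw [(sk_aSZ t E h x y).2, smul_smul, ← Complex.ofReal_mul, ← Real.exp_add]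
  simp

theorem sg_WZ : sgZ c φ ∈ WWZ c :=
  new_WZ t.grp (fun _ _ z a b => (sk_linZ t E a b z).1) (fun _ a => (ex_krZ t E a).ts)
    (fun _ a _ b k => (sk_lcZ t E a b k).1) (a := 0)
    (fun _ a x y => by simp [(sk_aSZ t E a x y).1]) (b := 1)
    (fun _ a w => by simp [(sk_aGZ t E a w).1]) h

theorem kp_WZ : kpZ c φ ∈ WWZ c :=
  new_WZ t.grp (fun _ _ z a b => (sk_linZ t E a b z).2) (fun _ a => (ex_krZ t E a).tk)
    (fun _ a _ b k => (sk_lcZ t E a b k).2) (fun _ a x y => kp_aSZ t E a x y) (b := 0)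
    (fun _ a w => by simp [(sk_aGZ t E a w).2]) h

theorem dl_sgZ : dlZ c 0 1 (sgZ c φ) = sgZ c (dlZ c 0 1 φ) := by
  simpa using dl_commZ t.grp (fun _ _ z a b => (sk_linZ t E a b z).1) h (x := 0) (y := 1) (a := 0)
    fun r => by simp [(sk_aSZ t E h _ _).1]

theorem dl_kpZ : dlZ c 0 1 (kpZ c φ) = kpZ c (dlZ c 0 1 φ) - kpZ c φ := by
  simpa [sub_eq_add_neg] using dl_commZ t.grp (fun _ _ z a b => (sk_linZ t E a b z).2) h (x := 0)
    (y := 1) (a := -1) fun r => by rw [kp_aSZ t E h, one_mul]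

end

end Vale.Agent.P352X.Pf
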