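import Vale.Agent.P352NA.PF.AH
import Vale.Agent.P352Z.P352NA.PF.Kr3

open Vale.Agent.P352G

/-!
# P352NA, block PF: the symmetry relations, weights
-/

set_option linter.all false

open Set Filter Topology
open scoped SchwartzMap

namespace Vale.Agent.P352X.Pf

open Vale.Agent.P352 Vale.Agent.P352.GF Vale.Agent.P352.H15
open Vale.Agent.P352NA.PF (AL Gen gen_of_eq)
open UniformSpace (Completion)
open Complex (I)
open TPD (TT)
open CA (Z0 e0)
open KDa (dS mS barL)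
open Real (exp)

noncomputable section

variable {D : Type*} [NormedAddCommGroup D] [InnerProductSpace ℂ D] [GrD D] {c : CtxZ D}
  {φ ψ φ' : TT D} {f g f0 : Sch} {l : ℂ}

theorem as_dZ (g' : GRPZ c) (h : TCZ c φ) (h' : TCZ c ψ) (a : V) (f g : Sch) :
    inner ℂ (φ (dS a f)) (ψ g) + inner ℂ (φ f) (ψ (dS a g)) = 0 := by
  have := ug_as (g'.ugT a) (h.gn a f).dm (h'.gn a g).dm
  rw [(h.gn a f).gen_eq, (h'.gn a g).gen_eq] at this
  simp only [smul_smul, Complex.I_mul_I, neg_one_smul, inner_neg_left, inner_neg_right] at this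
  linear_combination -this

/-- the action of `K` -/
def A0Z (c : CtxZ D) (φ : TT D) : TT D := φ ∘L KS + (2 : ℂ) • ∑ i, mmZ c i φ ∘L mS (xL i) +
  (2 : ℂ) • sgZ c φ ∘L mS beL + kpZ c φ

/-- the first order term -/
def A1Z (c : CtxZ D) (φ : TT D) : TT D :=
  (4 : ℂ) • φ ∘L vS (XS 0 1) + (8 : ℂ) • φ - (2 : ℂ) • sgZ c φ

variable (t : T2Z c) (E : EEZ c) (h : φ ∈ WWZ c)
include t E h

theorem gen_kyZ {u : ℝ} (hf : Ad u f) : I • gen (c.Ky (u • vb)) (φ f) =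
    A0Z c φ f + (u : ℂ) • A1Z c φ f - (2 * u ^ 2 : ℂ) • φ (dS vb f) := by
  have a := (ex_krZ t E h).r hf
  rw [RZ, ry_eqZ t h (by simpa using hf), KY_b] at a
  simp only [A0Z, A1Z, map_add, map_sub, map_smul, tx_smul, tx_vb, smul_zero, Pi.zero_apply,
    Complex.ofReal_zero, zero_smul, sub_zero, ContinuousLinearMap.add_apply, Fin.sum_univ_two,
    ContinuousLinearMap.sub_apply, ContinuousLinearMap.smul_apply,
    ContinuousLinearMap.comp_apply] at a ⊢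
  linear_combination (norm := module) a

theorem gen_KZ (hf : Ad 0 f) : I • gen c.SK (φ f) = A0Z c φ f := by
  have a := (ex_krZ t E h).eq f hf
  simp only [R0Z, A0Z, ContinuousLinearMap.add_apply, Fin.sum_univ_two,
    ContinuousLinearMap.smul_apply, ContinuousLinearMap.comp_apply] at a ⊢
  linear_combination (norm := module) a

theorem as_AZ (h' : ψ ∈ WWZ c) (f g : Sch) :
    inner ℂ (A0Z c φ f) (ψ g) + inner ℂ (φ f) (A0Z c ψ g) = 0 ∧
      inner ℂ (A1Z c φ f) (ψ g) + inner ℂ (φ f) (A1Z c ψ g) = 0 := by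
  have k : ∀ f g : Sch, HasCompactSupport f → HasCompactSupport g →
      inner ℂ (A0Z c φ f) (ψ g) + inner ℂ (φ f) (A0Z c ψ g) = 0 ∧
        inner ℂ (A1Z c φ f) (ψ g) + inner ℂ (φ f) (A1Z c ψ g) = 0 := fun f g hf hg => by
    obtain ⟨u, h1, h2⟩ := ((ev_ad hf).and (ev_ad hg)).exists
    have q : ∀ v : ℝ, u ≤ v → inner ℂ (A0Z c φ f) (ψ g) + inner ℂ (φ f) (A0Z c ψ g) +
        v * (inner ℂ (A1Z c φ f) (ψ g) + inner ℂ (φ f) (A1Z c ψ g)) = 0 := fun v hv => by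
      have a := ug_as (t.grp.ugKy (v • vb)) (gn_kyZ t h (f := f) (h1.le (by simpa))).dm
        (gn_kyZ t h' (f := g) (h2.le (by simpa))).dm
      rw [gen_kyZ t E h (h1.le hv), gen_kyZ t E h' (h2.le hv)] at a
      simp only [inner_add_left, inner_sub_left, inner_smul_left, inner_add_right, inner_sub_right,
        inner_smul_right, map_mul, map_pow, Complex.conj_ofReal, map_ofNat] at a
      linear_combination a + 2 * v ^ 2 * as_dZ t.grp (mb_WZ h).tc (mb_WZ h').tc vb f g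
    have a := q u le_rfl
    have b := q (u + 1) (by simp)
    push_cast at b
    exact ⟨by linear_combination (u + 1) * a - u * b, by linear_combination b - a⟩
  exact ⟨as_ext (fun f g a b => (k f g a b).1) f g, as_ext (fun f g a b => (k f g a b).2) f g⟩

theorem as_SZ (h' : ψ ∈ WWZ c) (f g : Sch) :
    inner ℂ (sgZ c φ f - ((2 : ℂ) • dlZ c 0 1 φ f + (4 : ℂ) • φ f)) (ψ g) =
      -inner ℂ (φ f) (sgZ c ψ g - ((2 : ℂ) • dlZ c 0 1 ψ g + (4 : ℂ) • ψ g)) := by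
  have a := (as_AZ t E h h' f g).2
  have b := ug_as (flSZ t.grp 0 1).ug ((mb_WZ h).dS 0 1 f) ((mb_WZ h').dS 0 1 g)
  rw [gen_SZ t.grp h, gen_SZ t.grp h'] at b
  simp only [A1Z, ContinuousLinearMap.add_apply, ContinuousLinearMap.sub_apply,
    ContinuousLinearMap.smul_apply, ContinuousLinearMap.comp_apply, inner_add_left, inner_sub_left,
    inner_smul_left, inner_add_right, inner_sub_right, inner_smul_right, map_ofNat] at a b ⊢
  linear_combination -(1 / 2) * a - 2 * b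

theorem A0_zZ (h0 : Z0 (ev f0)) :
    A0Z c φ f0 = (2 : ℂ) • φ (dS vb f0) + (2 * I) • sgZ c φ f0 + kpZ c φ f0 := by
  have x : ∀ i, mmZ c i φ (mS (xL i) f0) = 0 := fun i =>
    (mb_WZ (mm_WZ t.grp h i).1).tc.nu t.bas (by
      have := Nu_z (xL i) h0
      fin_cases i <;> simpa [e0, tx, bas, o] using this)
  have b : sgZ c φ (mS beL f0) = sgZ c φ (I • f0) := (ex_krZ t E h).ts.congr t.bas (by
    simpa [e0, be, va, GF.mdot, bas, o, eta, Fin.sum_univ_four] using Nu_z beL h0)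
  simp only [A0Z, ContinuousLinearMap.add_apply, Fin.sum_univ_two, ContinuousLinearMap.smul_apply,
    ContinuousLinearMap.comp_apply, x, b, (mb_WZ h).tc.congr t.bas (KS_nu h0), map_smul]
  module

theorem as_KZ (h' : ψ ∈ WWZ c) (h0 : Z0 (ev f0)) :
    inner ℂ (kpZ c φ f0) (ψ f0) + inner ℂ (φ f0) (kpZ c ψ f0) =
      2 * I * (inner ℂ (sgZ c φ f0) (ψ f0) - inner ℂ (φ f0) (sgZ c ψ f0)) := by
  have a := (as_AZ t E h h' f0 f0).1
  rw [A0_zZ t E h h0, A0_zZ t E h' h0] at a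
  simp only [inner_add_left, inner_smul_left, inner_add_right, inner_smul_right, map_ofNat, map_mul,
    Complex.conj_I] at a
  linear_combination a - 2 * as_dZ t.grp (mb_WZ h).tc (mb_WZ h').tc vb f0 f0

omit E in
theorem kilZ {μ : ℂ} (e : dlZ c 0 1 φ = μ • φ) (hμ : μ.re < -2) : φ = 0 := by
  obtain ⟨f0, h0⟩ := CA.nul_row.ex
  have k := flSZ t.grp 0 1
  have d : ∀ s : ℝ, HasDerivAt (fun r : ℝ => Complex.exp (-(μ * r)) • aSZ c (0 * r) (1 * r) φ f0)
      0 s := fun s => by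
    have a := ((dl_WZ t.grp h 0 1).2.ac (Usc c.Q (exp (0 * s)) (exp (1 * s))) (eS (0 * s) (1 * s))) f0
    change HasDerivAt (fun r => aSZ c _ _ (aSZ c _ _ φ) f0) (aSZ c _ _ _ f0) 0 at a
    simp only [aS_aSZ t.grp, ← mul_add, e, map_smul] at a
    have b := (show HasDerivAt _ _ (s - s) by rw [sub_self]; exact a).comp_sub_const s s
    simp only [add_sub_cancel] at b
    have := (((hasDerivAt_id' s).ofReal_comp.const_mul μ).fun_neg.cexp).fun_smul b
    refine this.congr_deriv ?_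
    simp [smul_smul]
  have a := congrArg norm (is_const_of_deriv_eq_zero (fun s => (d s).differentiableAt)
    (fun s => (d s).deriv) (-1) 0)
  have b := (mb_WZ h).tc.scal t.bas h0 (g := pL (eS 0 (-1)) f0) (Real.exp_pos (-1))
    (Real.exp_le_one_iff.2 (by norm_num)) fun z => by simp [pL_apply]
  rw [show aSZ c (0 * 0) (1 * 0) φ = φ from k.ac0, aSZ, ac_apply, norm_smul, norm_smul, Usc,
    t.grp.ug_norm] at a
  simp only [Complex.norm_exp, mul_neg, mul_one, neg_zero, Complex.ofReal_neg, Complex.ofReal_one,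
    neg_neg, Complex.ofReal_zero, mul_zero, Complex.zero_re, Real.exp_zero, one_mul] at a
  rw [← Real.exp_nat_mul, ← Real.exp_neg] at b
  refine (mb_WZ h).tc.inj t.bas h0 (norm_le_zero_iff.1 (not_lt.1 fun p => ?_))
  have := mul_le_mul_of_nonneg_left b (Real.exp_pos μ.re).le
  rw [a, ← mul_assoc, ← Real.exp_add] at this
  have q : exp (μ.re + -((2 : ℕ) * -1)) < 1 := Real.exp_lt_one_iff.2 (by push_cast; linarith)
  nlinarith

omit t E h

/-- operators on the class -/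
def cLZ (F : TT D → TT D)
    (h : ∀ φ ψ (z : ℂ), φ ∈ WWZ c → ψ ∈ WWZ c → F (φ + z • ψ) = F φ + z • F ψ)
    (m : ∀ φ ∈ WWZ c, F φ ∈ WWZ c) : WWZ c →ₗ[ℂ] WWZ c := (mkLZ F h).codRestrict _ fun x => m x x.2

/-- the weight operator -/
def DDZ (g : GRPZ c) : WWZ c →ₗ[ℂ] WWZ c := (2 : ℂ) • cLZ (dlZ c 0 1)
  (fun _ _ z a b => dl_linZ g a b z 0 1) (fun _ a => (dl_WZ g a 0 1).1) + (4 : ℂ) • 1

theorem DD_coeZ (g : GRPZ c) (x : WWZ c) :
    (DDZ g x : TT D) = (2 : ℂ) • dlZ c 0 1 x + (4 : ℂ) • (x : TT D) := rfl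

/-- weight vectors -/
structure EvZ (c : CtxZ D) (l : ℂ) (φ : TT D) : Prop where
  mem : φ ∈ WWZ c
  eq : (2 : ℂ) • dlZ c 0 1 φ + (4 : ℂ) • φ = l • φ

theorem EvZ.gen (g : GRPZ c) (h : EvZ c l φ) : Gen (DDZ g) l ⟨φ, h.mem⟩ :=
  gen_of_eq (Subtype.ext h.eq)

theorem EvZ.mm (g : GRPZ c) (h : EvZ c l φ) (i : Fin 2) : EvZ c (l - 1) (mmZ c i φ) := by
  refine ⟨(mm_WZ g h.mem i).1, ?_⟩
  let M := mkLZ (Pf.mmZ c i) fun _ _ z a b => mm_linZ g a b z i
  have a : M (DDZ g ⟨φ, h.mem⟩) = M (l • ⟨φ, h.mem⟩) := congrArg M (Subtype.ext h.eq)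
  rw [DDZ, LinearMap.add_apply, map_add, LinearMap.smul_apply, LinearMap.smul_apply, map_smul,
    map_smul, map_smul] at a
  change (2 : ℂ) • Pf.mmZ c i (dlZ c 0 1 φ) + (4 : ℂ) • Pf.mmZ c i φ = l • Pf.mmZ c i φ at a
  rw [dl_mmZ g h.mem]
  push_cast
  linear_combination (norm := module) a

theorem EvZ.lc (t : T1Z c) (h : EvZ c l φ) (h' : φ' ∈ WWZ c) (k : LcZ c φ φ') : EvZ c (star l) φ' := by
  have a := ((dl_lcZ t.grp h.mem h' k 0 1).smul 2).add (k.smul 4)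
  rw [h.eq] at a
  simp only [star_ofNat] at a
  exact ⟨h', a.unique t (k.smul l) (((mb_WZ (dl_WZ t.grp h' 0 1).1).tc.smul _).add
    ((mb_WZ h').tc.smul _)) ((mb_WZ h').tc.smul _)⟩

include t E

theorem ex_alZ : ∃ (ip : WWZ c →ₗ[ℂ] Completion D) (S K : WWZ c →ₗ[ℂ] WWZ c),
    AL ip (DDZ t.grp) S K (2 * I) ∧ (∀ x, (S x : TT D) = sgZ c x) ∧ ∀ x, (K x : TT D) = kpZ c x := by
  obtain ⟨f0, h0⟩ := CA.nul_row.ex
  obtain ⟨d, hd, e⟩ : ∃ d : WWZ c →ₗ[ℂ] WWZ c, (∀ x, (d x : TT D) = dlZ c 0 1 x) ∧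
      ∀ x, DDZ t.grp x = (2 : ℂ) • d x + (4 : ℂ) • x := ⟨_, fun _ => rfl, fun _ => rfl⟩
  obtain ⟨S, hS⟩ : ∃ S : WWZ c →ₗ[ℂ] WWZ c, ∀ x, (S x : TT D) = sgZ c x :=
    ⟨cLZ (sgZ c) (fun _ _ z a b => (sk_linZ t E a b z).1) fun _ a => sg_WZ t E a, fun _ => rfl⟩
  obtain ⟨K, hK⟩ : ∃ K : WWZ c →ₗ[ℂ] WWZ c, ∀ x, (K x : TT D) = kpZ c x :=
    ⟨cLZ (kpZ c) (fun _ _ z a b => (sk_linZ t E a b z).2) fun _ a => kp_WZ t E a, fun _ => rfl⟩
  obtain ⟨ip, hi⟩ : ∃ ip : WWZ c →ₗ[ℂ] Completion D, ∀ x, ip x = (x : TT D) f0 :=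
    ⟨⟨⟨fun x => (x : TT D) f0, fun _ _ => rfl⟩, fun _ _ => rfl⟩, fun _ => rfl⟩
  have s : ∀ x, d (S x) = S (d x) := fun x => Subtype.ext (by
    rw [hd, hS, hS, hd, dl_sgZ t E x.2])
  have k : ∀ x, d (K x) = K (d x) - K x := fun x => Subtype.ext (by
    rw [hd, Submodule.coe_sub, hK, hK, hd, dl_kpZ t E x.2])
  refine ⟨ip, S, K, ⟨fun x a => Subtype.ext ((mb_WZ x.2).tc.inj t.bas h0 ((hi x).symm.trans a)),
    by simp, fun x => ?_, fun x => ?_, fun x y => ?_, fun x y => ?_, fun l x a b => ?_⟩, hS, hK⟩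
  · simp only [e, s, map_add, map_smul]
  · simp only [e, k, map_add, map_smul]
    module
  · simp only [hi, Submodule.coe_sub, hS, DD_coeZ]
    exact as_SZ t E x.2 y.2 f0 f0
  · simp only [hi, hS, hK]
    exact as_KZ t E y.2 x.2 h0
  · refine Subtype.ext (kilZ t x.2 (μ := (l - 4) / 2) ?_ ?_)
    · have := congrArg Subtype.val b
      rw [DD_coeZ, Submodule.coe_smul] at this
      linear_combination (norm := module) (1 / 2 : ℂ) • this
    · simp only [Complex.div_ofNat_re, Complex.sub_re, Complex.re_ofNat]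
      linarith

theorem EvZ.sg (h : EvZ c l φ) : sgZ c φ = (l.re : ℂ) • φ := by
  obtain ⟨_, S, _, a, b, -⟩ := ex_alZ t E
  exact (b ⟨φ, h.mem⟩).symm.trans (congrArg Subtype.val (a.S_re (h.gen t.grp)))

theorem EvZ.kp (h : EvZ c l φ) : EvZ c (l - 2) (kpZ c φ) := by
  obtain ⟨_, _, K, a, -, b⟩ := ex_alZ t E
  have := congrArg Subtype.val (a.D_gen ((h.gen t.grp).shift a.dk))
  rw [DD_coeZ, Submodule.coe_smul, b] at this
  exact ⟨kp_WZ t E h.mem, this⟩

theorem EvZ.neg (h : EvZ c l φ) (hl : l.re < 0) : φ = 0 := by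
  obtain ⟨_, _, _, a, -⟩ := ex_alZ t E
  exact congrArg Subtype.val (a.neg hl (h.gen t.grp))

/-- families are spanned by weight vectors -/
theorem FamZ.dec {F : Submodule ℂ (TT D)} (hF : FamZ c F) :
    F ≤ Submodule.span ℂ {ψ | ψ ∈ F ∧ ∃ l, EvZ c l ψ} := fun φ hφ => by
  obtain ⟨_, _, _, a, -⟩ := ex_alZ t E
  haveI := hF.fd
  let j := Submodule.inclusion hF.le
  let T : Module.End ℂ F := ((WWZ c).subtype ∘ₗ DDZ t.grp ∘ₗ j).codRestrict F fun x =>
    F.add_mem (F.smul_mem _ (hF.dl t.grp x.2 0 1).1) (F.smul_mem _ x.2)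
  have m : (⟨φ, hφ⟩ : F) ∈ ⨆ μ, T.maxGenEigenspace μ := by
    rw [Module.End.iSup_maxGenEigenspace_eq_top]
    trivial
  refine Submodule.iSup_induction _ (motive := fun x : F => (x : TT D) ∈ _) m
    (fun μ x hx => Submodule.subset_span ⟨x.2, μ, hF.le x.2, ?_⟩) (zero_mem _)
    fun _ _ => add_mem
  obtain ⟨k, hk⟩ := (Module.End.mem_maxGenEigenspace _ _ _).1 hx
  refine congrArg Subtype.val (a.D_gen (l := μ) (x := j x) ⟨k, ?_⟩)
  rw [← LinearMap.comp_apply, Module.End.commute_pow_left_of_commute (g := T - μ • 1) (f := j)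
    (LinearMap.ext fun _ => rfl),
    LinearMap.comp_apply, hk, map_zero]

end

end Vale.Agent.P352X.Pf
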