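import Vale.Agent.P352NA.LB
import Vale.Agent.P352G6.Cov
import Vale.Agent.P352X.EG.MU2
import Vale.Agent.P352Z.P352NA.PF.Flow

open Vale.Agent.P352G

/-!
# P352NA, row PF
-/

set_option linter.all false

open Set Filter Topology
open scoped SchwartzMap

namespace Vale.Agent.P352X.Pf

open Vale.Agent.P352 Vale.Agent.P352.GF Vale.Agent.P352.H15 Vale.Agent.P352.H755
open Vale.Agent.P352.H246 (In)
open Vale.Agent.P352.SubConf (IsAdj)
open UniformSpace (Completion)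
open Complex (I)
open TPD (TT)
open KDa (barL)
open G1 (Hs)
open EB (rh cph Reg Sg)
open EB.NA (pe Pol N0Z g1 g1_act)
open EG (Sh Cg)
open EG.NG (Tr COV)
open EB.NA.Pe
open Real (exp)

noncomputable section

variable {D : Type*} [NormedAddCommGroup D] [InnerProductSpace ℂ D] [GrD D] {c : CtxZ D}
  {φ φ' ψ ψ' : TT D} {B B' : Fld D} {g : Sh c.cg} {l : ℂ}

section tr

omit [GrD D]

variable {k : Cg D} {K : Set V} {ξ ξ' : Completion D}

theorem trg_symm (h : Tr k K ξ ξ') : Tr k K ξ' ξ := by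
  induction h with
  | zero => exact .zero
  | fld B B' f a b d hf =>
    have := Tr.fld B' B (bar f) b a (H755.adj_symm d) hf.bar
    rwa [Ap.bar_bar] at this
  | add _ _ _ _ _ _ a b => exact .add _ _ _ _ a b
  | smul z _ _ _ a =>
    have := Tr.smul (starRingEnd ℂ z) _ _ a
    rwa [Complex.conj_conj] at this

theorem trg_sum {ι : Type*} (s : Finset ι) {f f' : ι → Completion D}
    (h : ∀ i ∈ s, Tr k K (f i) (f' i)) : Tr k K (∑ i ∈ s, f i) (∑ i ∈ s, f' i) := by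
  classical
  induction s using Finset.induction_on with
  | empty => exact .zero
  | insert i s hi ih =>
    simp only [Finset.sum_insert hi]
    exact .add _ _ _ _ (h i (Finset.mem_insert_self _ _))
      (ih fun j hj => h j (Finset.mem_insert_of_mem hj))

theorem trg_al (h : Tr k K ξ ξ') :
    ∃ X X', H246.Al k.Q K X X' ∧ ξ = (X k.Q.vac : D) ∧ ξ' = (X' k.Q.vac : D) := by
  induction h with
  | zero => exact ⟨_, _, .smul 0 _ _ .one, by simp [Completion.coe_zero], by simp [Completion.coe_zero]⟩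
  | fld B B' f a b d hf => exact ⟨_, _, .fld B B' f _ _ a b d hf .one, rfl, rfl⟩
  | add _ _ _ _ _ _ a b =>
    obtain ⟨X, X', a1, rfl, rfl⟩ := a
    obtain ⟨Y, Y', b1, rfl, rfl⟩ := b
    exact ⟨_, _, .add _ _ _ _ a1 b1, (Completion.coe_add _ _).symm, (Completion.coe_add _ _).symm⟩
  | smul z _ _ _ a =>
    obtain ⟨X, X', a1, rfl, rfl⟩ := a
    exact ⟨_, _, .smul z _ _ a1, (Completion.coe_smul _ _).symm, (Completion.coe_smul _ _).symm⟩

theorem ug_vac (s : EG.SG k) (g : Sh k) {n : ℕ} {κ : Fin n → ℂ} {y : Fin n → Completion D}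
    (h : ξ = ∑ i, κ i • g.inv.U k (y i)) : g.U k ξ = ∑ i, κ i • y i := by
  rw [h, map_sum]
  refine Finset.sum_congr rfl fun i _ => ?_
  rw [map_smul, s.U_inv, EG.MU2.us s]

theorem lbg_fld (q : EG.H.Lb k) : k.Q.fld q.B ∧ k.Q.fld q.B' :=
  ⟨let ⟨_, _, _, m, e⟩ := q.h; e ▸ m.mf.1 _, let ⟨_, _, _, m, e⟩ := q.h'; e ▸ m.mf.1 _⟩

end tr

theorem fld_linZ (h : c.Q.fld B) (f g : Sch) (a : ℂ) :
    B (ev (f + a • g)) c.Q.vac = B (ev f) c.Q.vac + a • B (ev g) c.Q.vac :=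
  c.Q.lin B (ev f) (ev g) a c.Q.vac h ⟨f, rfl⟩ ⟨g, rfl⟩

/-- fields applied to the vacuum -/
def fvZ (h : c.Q.fld B) : TT D := Completion.toComplL ∘L
  ⟨⟨⟨fun f => B (ev f) c.Q.vac, fun f g => by simpa using fld_linZ h f g 1⟩, fun a f => by
    have z : B (ev 0) c.Q.vac = 0 := by simpa using fld_linZ h 0 0 1
    simpa [z] using fld_linZ h 0 f a⟩, c.Q.cont B _ h⟩

theorem fv_applyZ (h : c.Q.fld B) (f : Sch) : fvZ h f = (B (ev f) c.Q.vac : D) := rfl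

theorem fv_tcZ (G : GRPZ c) (h : c.Q.fld B) : TCZ c (fvZ h) := fun a f => by
  have := c.Q.transl B a (ev (ST.tsl a f)) c.Q.vac h ⟨_, rfl⟩
  rw [c.Q.U_vac _ _ _ one_pos H496.isLor_one] at this
  rw [fv_applyZ, fv_applyZ, this, Ut, G.coe _ _ _ _ one_pos H496.isLor_one]
  congr 3
  funext z
  simp [ev, ST.tsl_apply, sim_ut]

/-- pairs of true letters -/
def TrPZ (c : CtxZ D) (φ φ' : TT D) : Prop :=
  ∀ K f, In K f → Tr c.cg K (φ (sch f)) (φ' (sch (bar f)))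

theorem TrPZ.symm (h : TrPZ c φ φ') : TrPZ c φ' φ := fun K f hf => by
  simpa only [Ap.bar_bar] using trg_symm (h K _ hf.bar)

theorem TrPZ.add (h : TrPZ c φ φ') (h' : TrPZ c ψ ψ') : TrPZ c (φ + ψ) (φ' + ψ') :=
  fun K f hf => .add _ _ _ _ (h K f hf) (h' K f hf)

theorem TrPZ.smul (z : ℂ) (h : TrPZ c φ φ') : TrPZ c (z • φ) (star z • φ') :=
  fun K f hf => .smul z _ _ (h K f hf)

theorem TrPZ.lc (G : GRPZ c) (h : TrPZ c φ φ') : LcZ c φ φ' := fun r _ f h1 h2 => by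
  obtain ⟨X, X', a, b, d⟩ := trg_al (h _ (ev f) ⟨⟨f, rfl⟩, h1, h2⟩)
  rw [Ap.sch_ev] at b
  rw [← KDa.ev_barL, Ap.sch_ev] at d
  rw [b, d]
  exact G.pr_Al a

theorem fv_trZ (h : c.Q.fld B) (h' : c.Q.fld B') (a : IsAdj B B') : TrPZ c (fvZ h) (fvZ h') :=
  fun K f hf => by
  rw [fv_applyZ, fv_applyZ, Ap.ev_sch hf.1, Ap.ev_sch hf.bar.1]
  exact .fld _ _ _ h h' a hf

theorem dm_DZ (G : GRPZ c) {W : ℝ → Completion D →L[ℂ] Completion D} {ε : ℝ → V ≃L[ℝ] V}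
    {X : V →L[ℝ] V} (k : Fl W ε X) {s : ℝ → ℝ} {L : ℝ → Ix → V} (h : ∀ t, 0 < s t ∧ IsLor (L t))
    (hW : ∀ t, W t = Ug c.Q (s t) (L t) 0) (he : ∀ t z, sim (s t) (L t) 0 z = ε t z) (s0 : s 0 = 1)
    (L0 : L 0 = GF.one) (v : D) : Dm W (v : Completion D) := by
  have d := c.hN.toRepZ.der s L (fun _ => 0) X v s0 L0 rfl h fun n x => by
    simp only [he]
    exact ((pj n).hasFDerivAt.comp_hasDerivAt 0 (k.der.clm_apply (hasDerivAt_const _ x))).congr_deriv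
      (by simp)
  simp only [Dm, hW, G.coe _ _ _ v (h _).1 (h _).2]
  exact (((Completion.toComplL : D →L[ℂ] Completion D).restrictScalars ℝ).hasFDerivAt.comp_hasDerivAt
    0 d).differentiableAt

/-- the scalings as similitudes -/
def gSZ (G : GRPZ c) (x y : ℝ) : Sg := ⟨_, _, 0, Real.sqrt_pos.2 (mul_pos (Real.exp_pos x)
  (Real.exp_pos y)), (G.lsc _ _ (Real.exp_pos x) (Real.exp_pos y)).1⟩

/-- the null rotations as similitudes -/
def gGZ (G : GRPZ c) (w : R2) : Sg := ⟨1, _, 0, one_pos, (G.lga w).1⟩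

theorem dm_SZ (G : GRPZ c) (x y : ℝ) (v : D) : Dm (WsZ c x y) (v : Completion D) :=
  dm_DZ G (flSZ G x y) (fun t => ⟨(gSZ G (x * t) (y * t)).hs, (gSZ G (x * t) (y * t)).hL⟩)
    (fun _ => rfl) (fun t => (G.lsc _ _ (Real.exp_pos _) (Real.exp_pos _)).2) (by simp [gSZ])
    (funext fun m => by simp [gSZ, bst, GF.one]) v

theorem dm_MZ (G : GRPZ c) (i : Fin 2) (v : D) : Dm (Mi c.Q i) (v : Completion D) :=
  dm_DZ G (flMZ G i) (fun t => ⟨one_pos, (G.lga (t • e2 i)).1⟩) (fun _ => rfl)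
    (fun t => (G.lga _).2) rfl (funext fun m => by simp [H746.nrt, GF.one, GF.mdot]) v

/-- the orbit of a field -/
def ObZ (c : CtxZ D) (B : Fld D) (g : Sh c.cg) (ψ : TT D) : Prop :=
  ∀ f, ψ f = g.U c.cg (B (g.pull (ev f)) c.Q.vac : D)

theorem ObZ.ac (t : EB.E0Z c) (h : ObZ c B g ψ) (k : Sh c.cg) {e : V ≃L[ℝ] V}
    (he : ∀ z, k.act z = e z) : ObZ c B (k.mul g) (ac (k.U c.cg) e ψ) := fun f => by
  rw [ac_apply, h, t.eg.sg.U_mul, show g.pull (ev (pL e f)) = (k.mul g).pull (ev f) from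
    funext fun z => congrArg f ((he _).symm.trans (t.eg.sg.act_mul _ _ _).symm)]
  rfl

theorem ObZ.unique (h : ObZ c B g ψ) (h' : ObZ c B g ψ') : ψ = ψ' :=
  ContinuousLinearMap.ext fun f => (h f).trans (h' f).symm

theorem startZ (t : EB.E0Z c) (hc : COV c.cg) (hB : c.Q.fld B) (hB' : c.Q.fld B') (hA : IsAdj B B') :
    ∃ F, FamZ c F ∧ fvZ hB ∈ F ∧ ∀ ψ ∈ F, ∃ ψ' ∈ F, TrPZ c ψ ψ' := by
  obtain ⟨-, n, q, κ, -, h2⟩ := hc B B' hB hB' hA
  have h1 : ∀ i, c.Q.fld (q i).B ∧ c.Q.fld (q i).B' ∧ IsAdj (q i).B (q i).B' := fun i =>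
    ⟨(lbg_fld (q i)).1, (lbg_fld (q i)).2, (q i).a⟩
  have p : ∀ (g : Sh c.cg) (f : Sch), g.inv.pull (g.pull (ev f)) = ev f := fun g f =>
    funext fun z => congrArg f (t.eg.sg.act_inv g z)
  have o : ∀ g : Sh c.cg, ObZ c B g (∑ i, κ g.inv i • fvZ (h1 i).1) ∧
      ObZ c B' g (∑ i, star (κ g.inv i) • fvZ (h1 i).2.1) := fun g =>
    ⟨fun f => by
      refine Eq.trans ?_ (ug_vac t.eg.sg g (h2 g.inv _ (t.eg.sg.test g _ ⟨f, rfl⟩)).1).symm
      rw [p]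
      simp only [ContinuousLinearMap.sum_apply]
      rfl, fun f => by
      refine Eq.trans ?_ (ug_vac t.eg.sg g (h2 g.inv _ (t.eg.sg.test g _ ⟨f, rfl⟩)).2).symm
      rw [p]
      simp only [ContinuousLinearMap.sum_apply]
      rfl⟩
  have tr : ∀ g : Sh c.cg, TrPZ c (∑ i, κ g.inv i • fvZ (h1 i).1)
      (∑ i, star (κ g.inv i) • fvZ (h1 i).2.1) := fun g K f hf => by
    simp only [ContinuousLinearMap.sum_apply]
    exact trg_sum _ fun i _ => (fv_trZ _ _ (h1 i).2.2).smul _ K f hf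
  let S := {ψ | ∃ g, ObZ c B g ψ ∨ ObZ c B' g ψ}
  let R := range (fun i => fvZ (h1 i).1) ∪ range fun i => fvZ (h1 i).2.1
  have le : Submodule.span ℂ S ≤ Submodule.span ℂ R := Submodule.span_le.2 <| by
    rintro ψ ⟨g, h | h⟩
    · exact h.unique (o g).1 ▸ Submodule.sum_mem _ fun i _ =>
        Submodule.smul_mem _ _ (Submodule.subset_span (.inl ⟨i, rfl⟩))
    · exact h.unique (o g).2 ▸ Submodule.sum_mem _ fun i _ =>
        Submodule.smul_mem _ _ (Submodule.subset_span (.inr ⟨i, rfl⟩))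
  have tc : ∀ ψ ∈ Submodule.span ℂ R, TCZ c ψ := fun ψ hψ => by
    induction hψ using Submodule.span_induction with
    | mem _ h => rcases h with ⟨i, rfl⟩ | ⟨i, rfl⟩ <;> exact fv_tcZ t.grp _
    | zero => exact .zero
    | add _ _ _ _ a b => exact a.add b
    | smul z _ _ a => exact a.smul z
  have par : ∀ ψ ∈ Submodule.span ℂ S, ∃ ψ' ∈ Submodule.span ℂ S, TrPZ c ψ ψ' := fun ψ hψ => by
    induction hψ using Submodule.span_induction with
    | mem _ h =>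
      obtain ⟨g, h | h⟩ := h
      · exact ⟨_, Submodule.subset_span ⟨g, .inr (o g).2⟩, h.unique (o g).1 ▸ tr g⟩
      · exact ⟨_, Submodule.subset_span ⟨g, .inl (o g).1⟩, h.unique (o g).2 ▸ (tr g).symm⟩
    | zero => exact ⟨0, zero_mem _, fun _ _ _ => .zero⟩
    | add _ _ _ _ a b =>
      obtain ⟨_, a1, a2⟩ := a
      obtain ⟨_, b1, b2⟩ := b
      exact ⟨_, add_mem a1 b1, a2.add b2⟩
    | smul z _ _ a =>
      obtain ⟨_, a1, a2⟩ := a
      exact ⟨_, Submodule.smul_mem _ _ a1, a2.smul z⟩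
  haveI := FiniteDimensional.span_of_finite ℂ (A := R) ((finite_range _).union (finite_range _))
  refine ⟨Submodule.span ℂ S, ⟨Submodule.finiteDimensional_of_le le, fun ψ hψ => ?_⟩,
    Submodule.subset_span ⟨⟨g1, false⟩, .inl fun f => ?_⟩, par⟩
  · induction hψ using Submodule.span_induction with
    | mem ψ h =>
      have m := Submodule.subset_span (R := ℂ) h
      obtain ⟨g, h⟩ := h
      have v : ∀ f, ∃ v : D, ψ f = v := fun f => by
        rcases h with h | h <;> exact (t.eg.sg.sur g _).imp fun _ a => (h f).trans a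
      refine ⟨tc ψ (le m), (par ψ m).imp fun _ a => ⟨a.1, a.2.lc t.grp⟩,
        fun x y => Submodule.subset_span ⟨Sh.mul ⟨gSZ t.grp x y, false⟩ g, ?_⟩,
        fun w => Submodule.subset_span ⟨Sh.mul ⟨gGZ t.grp w, false⟩ g, ?_⟩, fun x y f => ?_, fun i f => ?_⟩
      · have e := (t.grp.lsc _ _ (Real.exp_pos x) (Real.exp_pos y)).2
        exact h.imp (fun a => a.ac t ⟨gSZ t.grp x y, false⟩ e) fun a =>
          a.ac t ⟨gSZ t.grp x y, false⟩ e
      · have e := (t.grp.lga w).2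
        exact h.imp (fun a => a.ac t ⟨gGZ t.grp w, false⟩ e) fun a => a.ac t ⟨gGZ t.grp w, false⟩ e
      · obtain ⟨v, hv⟩ := v f
        exact hv ▸ dm_SZ t.grp x y v
      · obtain ⟨v, hv⟩ := v f
        exact hv ▸ dm_MZ t.grp i v
    | zero => exact .zero
    | add _ _ _ _ a b => exact a.add b
    | smul z _ _ a => exact a.smul z
  · rw [show Sh.U (c := c.cg) ⟨g1, false⟩ c.cg = 1 from t.grp.ut0,
      show g1.pull (ev f) = ev f from funext fun z => congrArg f (g1_act z)]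
    rfl

/-- polynomial families -/
def PQZ (c : CtxZ D) (φ φ' : TT D) : Prop := ∃ N : ℕ, ∀ f, In {z | be z < 0} f →
  ∃ η η' : ℝ → Completion D, η 0 = φ (sch f) ∧ η' 0 = φ' (sch (bar f)) ∧
    (∀ t, 0 ≤ t → Reg (-t) f → Tr c.cg (cph t '' tsupport f) (η t) (η' t)) ∧
    Pol N {t | 0 ≤ t ∧ Reg (-t) f} (fun t => c.SK t (η t)) ∧
    Pol N {t | 0 ≤ t ∧ Reg (-t) f} fun t => c.SK t (η' t)

theorem PQZ.lin (h : PQZ c φ φ') (h' : PQZ c ψ ψ') (z : ℂ) :
    PQZ c (φ + z • ψ) (φ' + star z • ψ') := by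
  obtain ⟨N, h⟩ := h
  obtain ⟨M, h'⟩ := h'
  refine ⟨max N M, fun f hf => ?_⟩
  obtain ⟨η, η', a1, a2, a3, a4, a5⟩ := h f hf
  obtain ⟨ζ, ζ', b1, b2, b3, b4, b5⟩ := h' f hf
  refine ⟨fun t => η t + z • ζ t, fun t => η' t + star z • ζ' t, by simp [a1, b1], by simp [a2, b2],
    fun t p q => .add _ _ _ _ (a3 t p q) (.smul z _ _ (b3 t p q)), ?_, ?_⟩
  · simpa using (a4.mono (le_max_left _ _)).add ((b4.mono (le_max_right _ _)).smul z)
  · simpa using (a5.mono (le_max_left _ _)).add ((b5.mono (le_max_right _ _)).smul (star z))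

theorem PQZ.zero : PQZ c 0 0 := ⟨0, fun _ _ => ⟨0, 0, rfl, rfl, fun _ _ _ => .zero,
  by simpa using Pol.zero, by simpa using Pol.zero⟩⟩

theorem EvZ.pq (t : N0Z c) (h : EvZ c l φ) (h' : φ' ∈ WWZ c) (k : TrPZ c φ φ') : PQZ c φ φ' := by
  refine ⟨⌈l.re⌉₊, fun f hf => ⟨fun s => φ (sch (pe (l.re - 4 - ⌈l.re⌉₊) (-s) f)),
    fun s => φ' (sch (pe (l.re - 4 - ⌈l.re⌉₊) (-s) (bar f))), by simp, by simp, fun s _ r => ?_,
    h.pol t.toT2Z t.ee (Nat.le_ceil _) hf, ?_⟩⟩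
  · simpa only [pe_bar, neg_neg] using k _ _ (in_img hf r)
  · have := (h.lc t.toT1Z h' (k.lc t.grp)).pol t.toT2Z t.ee (N := ⌈l.re⌉₊) (Nat.le_ceil _) hf.bar
    simp only [Reg, show tsupport (bar f) = tsupport f from Ap.tsupport_conj f] at this
    exact this

end

end Vale.Agent.P352X.Pf

namespace Vale.Agent.P352X.EB.NA

open Pf

theorem pf_rowZ {D : Type*} [NormedAddCommGroup D] [InnerProductSpace ℂ D] [GrD D] {c : CtxZ D}
    (t : N0Z c) : @EG.NG.PF _ _ _ c.cg ⟨c.T, c.l, c.SK⟩ := fun B B' hB hB' hA => by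
  obtain ⟨F, hF, m, par⟩ := startZ t.toE0Z (EG.NG.cov_row t.eg t.mf t.fsl) hB hB' hA
  have k : ∀ ψ ∈ Submodule.span ℂ {ψ | ψ ∈ F ∧ ∃ l, EvZ c l ψ},
      ∃ ψ' ∈ F, TrPZ c ψ ψ' ∧ PQZ c ψ ψ' := fun ψ hψ => by
    induction hψ using Submodule.span_induction with
    | mem ψ h =>
      obtain ⟨a, l, b⟩ := h
      obtain ⟨ψ', p, q⟩ := par ψ a
      exact ⟨ψ', p, q, b.pq t (hF.le p) q⟩
    | zero => exact ⟨0, zero_mem _, fun _ _ _ => .zero, .zero⟩
    | add _ _ _ _ a b =>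
      obtain ⟨_, a1, a2, a3⟩ := a
      obtain ⟨_, b1, b2, b3⟩ := b
      exact ⟨_, add_mem a1 b1, a2.add b2, by simpa using a3.lin b3 1⟩
    | smul z _ _ a =>
      obtain ⟨_, a1, a2, a3⟩ := a
      exact ⟨_, F.smul_mem _ a1, a2.smul z, by simpa using PQZ.zero.lin a3 z⟩
  obtain ⟨ψ', p, q, N, h⟩ := k _ (hF.dec t.toT2Z t.ee m)
  rw [(q.lc t.grp).unique t.toT1Z ((fv_trZ hB hB' hA).lc t.grp) (hF.mb _ p).tc (fv_tcZ t.grp _)] at h
  refine ⟨N, fun f hf => ?_⟩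
  have := h f hf
  rw [fv_applyZ (c := c) hB, fv_applyZ (c := c) hB', Ap.ev_sch hf.1, Ap.ev_sch hf.bar.1] at this
  exact this

end Vale.Agent.P352X.EB.NA
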